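import Vale.Agent.P342.Fried

/-! The junta theorem in counting form and the decoding of juntas. -/

namespace Vale.Agent.P318

open Finset Vale.Agent.P325 Vale.Agent.P342

/-- The cube. -/
abbrev Cube (k : ℕ) : Type := Fin k → Bool

/-- Number of points where two functions differ. -/
def df {X : Type} [Fintype X] (f g : X → Bool) : ℕ := (univ.filter fun x => f x ≠ g x).card

theorem df_equiv {X : Type} [Fintype X] (f g : X → Bool) (σ : X ≃ X) :
    df (fun x => f (σ x)) (fun x => g (σ x)) = df f g := by
  unfold df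
  exact card_bij (fun x _ => σ x) (by simp) (fun _ _ _ _ h => σ.injective h)
    fun y hy => ⟨σ.symm y, by simpa using hy, by simp⟩

theorem df_tri {X : Type} [Fintype X] (f g h : X → Bool) : df f h ≤ df f g + df g h := by
  classical
  unfold df
  refine le_trans (card_le_card ?_) (card_union_le _ _)
  intro x hx
  simp only [mem_filter, mem_univ, true_and, mem_union] at hx ⊢
  by_contra hc
  push Not at hc
  exact hx (hc.1.trans hc.2)

theorem df_comm {X : Type} [Fintype X] (f g : X → Bool) : df f g = df g f := by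
  unfold df; simp only [ne_comm]

theorem df_le {X : Type} [Fintype X] (f g : X → Bool) : df f g ≤ Fintype.card X :=
  card_le_univ _

/-- Total influence as a count. -/
def infl {k : ℕ} (F : Cube k → Bool) : ℕ :=
  df (fun p : Cube k × Fin k => F (Function.update p.1 p.2 true))
    fun p => F (Function.update p.1 p.2 false)

theorem exb_half {k : ℕ} (f : Cube k → ℝ) :
    Exb (fun _ => 1 / 2) f = (∑ x, f x) / 2 ^ k := by
  unfold Exb
  rw [sum_div]
  refine sum_congr rfl fun x _ => ?_
  have h : ∀ i, (if x i = true then (1 / 2 : ℝ) else 1 - 1 / 2) = 1 / 2 := fun i => by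
    split_ifs <;> norm_num
  simp only [h, prod_const, card_univ, Fintype.card_fin]
  rw [one_div, inv_pow]; ring

theorem sum_ind {X : Type} [Fintype X] (p : X → Prop) [DecidablePred p] :
    ∑ x, ind (p x) = ((univ.filter p).card : ℝ) := by
  rw [card_filter]
  push_cast
  refine sum_congr rfl fun x _ => ?_
  unfold ind
  congr

theorem junta (I : ℕ) : ∃ t : ℕ, ∀ (k : ℕ) (F : Cube k → Bool), infl F ≤ I * 2 ^ k →
    ∃ (T : Finset (Fin k)) (g : Cube k → Bool), T.card ≤ t ∧
      (∀ x y, (∀ i ∈ T, x i = y i) → g x = g y) ∧ 64 * df F g ≤ 2 ^ k := by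
  obtain ⟨t, ht⟩ := friedThm I (1 / 256) (by norm_num)
  refine ⟨t, fun k F hF => ?_⟩
  have h2 : (0 : ℝ) < 2 ^ k := by positivity
  obtain ⟨T, hT, hE⟩ := ht (Fin k) (fun _ => 1 / 2) (fun x => F x = true)
    (fun _ => by norm_num) (by
      simp only [exb_half]
      rw [← sum_div, div_le_iff₀ h2, sum_comm, ← Fintype.sum_prod_type', sum_ind]
      have e : (univ.filter fun p : Cube k × Fin k =>
          ¬ (F (Function.update p.1 p.2 true) = true ↔ F (Function.update p.1 p.2 false) = true)).card
          = infl F := by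
        unfold infl df
        congr 1
        ext p
        simp only [mem_filter, mem_univ, true_and]
        cases F (Function.update p.1 p.2 true) <;> cases F (Function.update p.1 p.2 false) <;> simp
      rw [e]
      exact_mod_cast hF)
  let m : Cube k → ℝ := fun x => Exb (fun _ => 1 / 2) fun y => ind (F (T.piecewise x y) = true)
  refine ⟨T, fun x => decide (1 / 2 ≤ m x), hT, fun x y h => ?_, ?_⟩
  · have e : ∀ z, T.piecewise x z = T.piecewise y z := fun z => by
      funext i
      by_cases hi : i ∈ T <;> simp [hi, h]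
    simp only [m, e]
  · rw [exb_half, div_le_iff₀ h2] at hE
    have h3 : ∑ x, ind (F x ≠ decide (1 / 2 ≤ m x)) ≤ ∑ x, 4 * (ind (F x = true) - m x) ^ 2 := by
      refine sum_le_sum fun x _ => ?_
      unfold ind
      by_cases h1 : 1 / 2 ≤ m x
      · rw [decide_eq_true h1]
        cases F x <;> simp <;> nlinarith
      · rw [decide_eq_false h1]
        cases F x <;> simp <;> nlinarith
    rw [sum_ind, ← mul_sum] at h3
    have h4 : (64 : ℝ) * df F (fun x => decide (1 / 2 ≤ m x)) ≤ 2 ^ k := by
      unfold df
      have : ∑ x, (ind (F x = true) - m x) ^ 2 ≤ 1 / 256 * 2 ^ k := hE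
      linarith
    exact_mod_cast h4

theorem two_fixed {n t : ℕ} (u v : Fin n) (s s' : Fin t) (h : u ≠ v ∨ s = s') :
    t ^ n ≤ t * t * (univ.filter fun r : Fin n → Fin t => r u = s ∧ r v = s').card := by
  have h1 : (univ : Finset (Fin n → Fin t)).card ≤
      ((univ : Finset (Fin t × Fin t)) ×ˢ
        (univ.filter fun r : Fin n → Fin t => r u = s ∧ r v = s')).card := by
    refine card_le_card_of_injOn
      (fun r => ((r u, r v), Function.update (Function.update r u s) v s')) ?_ ?_
    · intro r _
      simp only [coe_product, coe_univ, coe_filter, mem_univ, true_and, Set.mem_prod,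
        Set.mem_univ, Set.mem_ofPred_eq, Function.update_self, and_true]
      by_cases huv : u = v
      · subst huv
        simp only [ne_eq, not_true_eq_false, false_or] at h
        simp [h]
      · rw [Function.update_of_ne huv]; simp
    · intro r _ r' _ e
      simp only [Prod.mk.injEq] at e
      funext w
      by_cases h1 : w = v
      · rw [h1]; exact e.1.2
      by_cases h2 : w = u
      · rw [h2]; exact e.1.1
      have := congrFun e.2 w
      rwa [Function.update_of_ne h1, Function.update_of_ne h1, Function.update_of_ne h2,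
        Function.update_of_ne h2] at this
  simpa using h1

/-- The lists at the two ends of a constraint contain a matching pair. -/
def Hit {k : ℕ} (J : ℕ → Finset (Fin k)) (c : ℕ × ℕ × Equiv.Perm (Fin k)) : Prop :=
  ∃ i ∈ J c.1, c.2.2 i ∈ J c.2.1 ∧ (c.1 ≠ c.2.1 ∨ c.2.2 i = i)

open Classical in
theorem decode {k t : ℕ} (hk : 0 < k) (ht : 0 < t) (G : UG k) (J : ℕ → Finset (Fin k))
    (hJ : ∀ u, (J u).card ≤ t) :
    ∃ a, G.countP (fun c => decide (Hit J c)) ≤ t * t * ugCount G a := by
  obtain ⟨n, hn⟩ : ∃ n, ∀ c ∈ G, c.1 < n ∧ c.2.1 < n := by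
    induction G with
    | nil => exact ⟨0, by simp⟩
    | cons c G ih =>
      obtain ⟨n, hn⟩ := ih
      refine ⟨n + c.1 + c.2.1 + 1, fun d hd => ?_⟩
      rcases List.mem_cons.1 hd with rfl | hd
      · omega
      · have := hn d hd; omega
  let e : ℕ → Fin t → Fin k := fun u s => (J u).toList.getD s ⟨0, hk⟩
  have he : ∀ u, ∀ i ∈ J u, ∃ s, e u s = i := fun u i hi => by
    obtain ⟨j, hj, rfl⟩ := List.getElem_of_mem (mem_toList.2 hi)
    exact ⟨⟨j, lt_of_lt_of_le hj ((length_toList _).trans_le (hJ u))⟩, by
      simp [e, List.getElem?_eq_getElem hj]⟩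
  let a : (Fin n → Fin t) → ℕ → Fin k := fun r u => if h : u < n then e u (r ⟨u, h⟩) else ⟨0, hk⟩
  have key : ∑ _r : Fin n → Fin t, G.countP (fun c => decide (Hit J c)) ≤
      ∑ r : Fin n → Fin t, t * t * ugCount G (a r) := by
    induction G with
    | nil => simp
    | cons c G ih =>
      have h1 := ih fun d hd => hn d (List.mem_cons_of_mem _ hd)
      obtain ⟨hu, hv⟩ := hn c List.mem_cons_self
      simp only [ugCount, List.countP_cons, mul_add, sum_add_distrib] at h1 ⊢
      refine add_le_add h1 ?_
      by_cases hc : Hit J c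
      · obtain ⟨i, hi, hi', hor⟩ := id hc
        obtain ⟨s, hs⟩ := he _ _ hi
        obtain ⟨s', hs'⟩ : ∃ s', e c.2.1 s' = c.2.2 i ∧ (c.1 ≠ c.2.1 ∨ s = s') := by
          by_cases huv : c.1 = c.2.1
          · refine ⟨s, ?_, Or.inr rfl⟩
            rw [← huv, hs, hor.resolve_left (not_not.2 huv)]
          · obtain ⟨s', h⟩ := he _ _ hi'
            exact ⟨s', h, Or.inl huv⟩
        have h2 := two_fixed (⟨c.1, hu⟩ : Fin n) ⟨c.2.1, hv⟩ s s'
          (hs'.2.imp (fun h h' => h (congrArg Fin.val h')) id)
        simp only [hc, decide_true, if_true, sum_const, card_univ, Fintype.card_fun,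
          Fintype.card_fin, smul_eq_mul, mul_one]
        rw [← mul_sum, ← card_filter]
        refine h2.trans (Nat.mul_le_mul_left _ (card_le_card fun r hr => ?_))
        simp only [mem_filter, mem_univ, true_and, decide_eq_true_eq] at hr ⊢
        simp only [a, hu, hv, dite_true, hr.1, hr.2, hs, hs'.1]
      · simp [hc]
  have : Nonempty (Fin n → Fin t) := ⟨fun _ => ⟨0, ht⟩⟩
  obtain ⟨r, -, hr⟩ := exists_le_of_sum_le univ_nonempty key
  exact ⟨a r, hr⟩

end Vale.Agent.P318
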