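import Vale.Agent.P318.Defs
import Vale.Agent.P318.Junta

/-! The instance built from a unique game, completeness and soundness. -/

namespace Vale.Agent.P318

open Finset Vale.Agent.P325

/-- Number of edges cut by a two-colouring. -/
def cutP (E : Edges) (T : ℕ → Bool) : ℕ := E.countP fun e => T e.1 != T e.2

theorem cutP_append (E E' : Edges) (T : ℕ → Bool) : cutP (E ++ E') T = cutP E T + cutP E' T :=
  List.countP_append

theorem cutP_nil (T : ℕ → Bool) : cutP [] T = 0 := rfl

/-- The name of the point `x` of the cube of `u`. -/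
noncomputable def nm {k : ℕ} (u : ℕ) (x : Cube k) : ℕ :=
  u * Fintype.card (Cube k) + (Fintype.equivFin (Cube k) x : ℕ)

theorem nm_inj {k u v : ℕ} {x y : Cube k} (h : nm u x = nm v y) : u = v ∧ x = y := by
  have hx := (Fintype.equivFin (Cube k) x).2
  have hy := (Fintype.equivFin (Cube k) y).2
  have h1 := congrArg (· % Fintype.card (Cube k)) h
  simp only [nm, Nat.mul_add_mod_of_lt hx, Nat.mul_add_mod_of_lt hy] at h1
  have h2 := (Fintype.equivFin (Cube k)).injective (Fin.ext h1)
  subst h2
  exact ⟨Nat.eq_of_mul_eq_mul_right (by omega) (Nat.add_right_cancel h), rfl⟩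

/-- Edges indexed by a finite type. -/
noncomputable def edg {X : Type} [Fintype X] (f g : X → ℕ) : Edges :=
  (univ : Finset X).toList.map fun x => (f x, g x)

theorem cutP_edg {X : Type} [Fintype X] (f g : X → ℕ) (T : ℕ → Bool) :
    cutP (edg f g) T = df (fun x => T (f x)) fun x => T (g x) := by
  classical
  unfold cutP edg df
  rw [List.countP_map, List.countP_eq_length_filter, ← List.toFinset_card_of_nodup
    ((nodup_toList _).filter _)]
  congr 1
  ext x
  simp

theorem length_edg {X : Type} [Fintype X] (f g : X → ℕ) : (edg f g).length = Fintype.card X := by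
  simp [edg]

/-- A constraint with the table of its permutation. -/
abbrev Raw : Type := ℕ × ℕ × List ℕ

/-- The table form of a constraint. -/
def raw {k : ℕ} (c : ℕ × ℕ × Equiv.Perm (Fin k)) : Raw :=
  (c.1, c.2.1, List.ofFn fun i => (c.2.2 i : ℕ))

/-- The partner of a point along a constraint. -/
def part {k : ℕ} (c : Raw) (y : Cube k) : Cube k := fun i =>
  if c.1 = c.2.1 then (if c.2.2.getD i 0 = i then y i else !y i)
  else (List.ofFn y).getD (c.2.2.getD i 0) false

theorem part_raw {k : ℕ} (c : ℕ × ℕ × Equiv.Perm (Fin k)) (y : Cube k) (i : Fin k) :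
    part (raw c) y i =
      if c.1 = c.2.1 then (if c.2.2 i = i then y i else !y i) else y (c.2.2 i) := by
  simp [part, raw, Fin.ext_iff]

/-- The antipode. -/
def neg {k : ℕ} (x : Cube k) : Cube k := fun i => !x i

/-- Demands: antipodal pairs. -/
noncomputable def demE (k u : ℕ) : Edges := edg (nm u) fun x : Cube k => nm u (neg x)

/-- Edges of the cube. -/
noncomputable def cubeE (k u : ℕ) : Edges :=
  edg (fun p : Cube k × Fin k => nm u (Function.update p.1 p.2 true))
    fun p => nm u (Function.update p.1 p.2 false)

/-- Consistency edges. -/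
noncomputable def consE (k W : ℕ) (c : Raw) : Edges :=
  (List.range W).flatMap fun _ => edg (nm c.2.1) fun y : Cube k => nm c.1 (part c y)

/-- The capacity graph. -/
noncomputable def capG (k W : ℕ) (R : List Raw) : Edges :=
  R.flatMap fun c => cubeE k c.1 ++ (cubeE k c.2.1 ++ consE k W c)

/-- The demand graph. -/
noncomputable def demG (k : ℕ) (R : List Raw) : Edges := R.flatMap fun c => demE k c.1

theorem length_demG (k : ℕ) (R : List Raw) : (demG k R).length = R.length * 2 ^ k := by
  induction R with
  | nil => simp [demG]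
  | cons c R ih =>
    unfold demG at ih ⊢
    rw [List.flatMap_cons, List.length_append, ih, demE, length_edg]
    simp; ring

theorem cutP_cube (k u : ℕ) (T : ℕ → Bool) :
    cutP (cubeE k u) T = infl fun x : Cube k => T (nm u x) := cutP_edg _ _ _

theorem cutP_cons (k W : ℕ) (c : Raw) (T : ℕ → Bool) : cutP (consE k W c) T =
    W * df (fun y : Cube k => T (nm c.2.1 y)) fun y => T (nm c.1 (part c y)) := by
  induction W with
  | zero => simp [consE, cutP]
  | succ W ih =>
    unfold consE at ih ⊢
    rw [List.range_succ, List.flatMap_append, cutP_append, ih, List.flatMap_singleton, cutP_edg]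
    ring

/-- Flip the coordinates in a set. -/
def flp {k : ℕ} (p : Fin k → Prop) [DecidablePred p] : Cube k ≃ Cube k :=
  Function.Involutive.toPerm (fun y i => if p i then !y i else y i) fun y => by
    funext i; by_cases h : p i <;> simp [h]

theorem flp_apply {k : ℕ} (p : Fin k → Prop) [DecidablePred p] (y : Cube k) (i : Fin k) :
    flp p y i = if p i then !y i else y i := rfl

theorem miss {k : ℕ} (c : ℕ × ℕ × Equiv.Perm (Fin k)) (J : ℕ → Finset (Fin k))
    (F g : ℕ → Cube k → Bool) (hg : ∀ u x y, (∀ i ∈ J u, x i = y i) → g u x = g u y)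
    (h : ¬ Hit J c) :
    df (F c.1) (fun x => F c.1 (neg x)) ≤ 2 * df (F c.2.1) (fun y => F c.1 (part (raw c) y)) +
      2 * df (F c.1) (g c.1) + 2 * df (F c.2.1) (g c.2.1) := by
  obtain ⟨u, v, π⟩ := c
  let N : Cube k ≃ Cube k := flp fun _ => True
  have hN : ∀ x, neg x = N x := fun x => by funext i; simp [N, flp_apply, neg]
  simp only [Hit, not_exists, not_and, not_or, not_not] at h
  simp only [hN]
  by_cases huv : u = v
  · subst huv
    let P : Cube k ≃ Cube k := flp fun i => π i ≠ i
    have hP : ∀ y, part (raw (u, u, π)) y = P y := fun y => by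
      funext i; simp [part_raw, P, flp_apply]
    have e : (fun y => g u (P y)) = fun y => g u (N y) := by
      funext y
      refine hg _ _ _ fun i hi => ?_
      have h1 : π i ≠ i := fun h1 => (h i hi (h1.symm ▸ hi)).2 h1
      simp [P, N, flp_apply, h1]
    simp only [hP]
    have a1 := df_tri (F u) (fun y => F u (P y)) fun x => F u (N x)
    have a2 := df_tri (fun y => F u (P y)) (fun y => g u (P y)) fun x => F u (N x)
    rw [df_equiv (F u) (g u) P, e, df_equiv (g u) (F u) N, df_comm (g u)] at a2
    omega
  · let P : Cube k ≃ Cube k := π.symm.arrowCongr (Equiv.refl Bool)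
    have hP' : ∀ y i, P y i = y (π i) := fun y i => rfl
    have hP : ∀ y, part (raw (u, v, π)) y = P y := fun y => by
      funext i; simp [part_raw, hP', huv]
    let φ : Cube k ≃ Cube k := flp fun j => π.symm j ∈ J u
    have e1 : (fun y => g v (φ y)) = g v := by
      funext y
      refine hg _ _ _ fun j hj => ?_
      have h1 : π.symm j ∉ J u := fun h1 => huv (h _ h1 (by simpa using hj)).1
      simp [φ, flp_apply, h1]
    have e2 : (fun y => g u (P (φ y))) = fun y => g u (N (P y)) := by
      funext y
      refine hg _ _ _ fun i hi => ?_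
      simp [hP', φ, N, flp_apply, hi]
    simp only [hP]
    rw [← df_equiv (F u) (fun x => F u (N x)) P]
    have a1 := df_tri (fun y => F u (P y)) (F v) fun y => F u (N (P y))
    have a2 := df_tri (F v) (g v) fun y => F u (N (P y))
    have a3 := df_tri (g v) (fun y => F v (φ y)) fun y => F u (N (P y))
    have a4 := df_tri (fun y => F v (φ y)) (fun y => F u (P (φ y))) fun y => F u (N (P y))
    have a5 := df_tri (fun y => F u (P (φ y))) (fun y => g u (P (φ y))) fun y => F u (N (P y))
    have b1 := df_comm (fun y => F u (P y)) (F v)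
    have b3 : df (g v) (fun y => F v (φ y)) = df (F v) (g v) := by
      rw [← df_equiv (F v) (g v) φ, e1, df_comm]
    have b4 := df_equiv (F v) (fun y => F u (P y)) φ
    have b5 : df (fun y => F u (P (φ y))) (fun y => g u (P (φ y))) = df (F u) (g u) :=
      df_equiv (F u) (g u) (φ.trans P)
    have b6 : df (fun y => g u (P (φ y))) (fun y => F u (N (P y))) = df (F u) (g u) := by
      rw [e2, df_comm]
      exact df_equiv (F u) (g u) (P.trans N)
    omega

theorem sound (K : ℕ) (hK : 0 < K) : ∃ t : ℕ, 0 < t ∧ ∀ k : ℕ, 0 < k → ∀ (G : UG k) (T : ℕ → Bool),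
    (demG k (G.map raw)).length ≤ 4 * cutP (demG k (G.map raw)) T →
    cutP (capG k (512 * K) (G.map raw)) T ≤ K * (demG k (G.map raw)).length →
    ∃ a, G.length ≤ 16 * (t * t * ugCount G a) := by
  classical
  obtain ⟨t, ht⟩ := junta (16 * K)
  refine ⟨t + 1, by omega, fun k hk G T h1 h2 => ?_⟩
  let F : ℕ → Cube k → Bool := fun u x => T (nm u x)
  have hex : ∀ u, ∃ (J : Finset (Fin k)) (g : Cube k → Bool), J.card ≤ t + 1 ∧
      (∀ x y, (∀ i ∈ J, x i = y i) → g x = g y) ∧
      (infl (F u) ≤ 16 * K * 2 ^ k → 64 * df (F u) g ≤ 2 ^ k) := fun u => by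
    by_cases h : infl (F u) ≤ 16 * K * 2 ^ k
    · obtain ⟨J, g, a1, a2, a3⟩ := ht k _ h
      exact ⟨J, g, by omega, a2, fun _ => a3⟩
    · exact ⟨∅, fun _ => true, by simp, by simp, fun h' => (h h').elim⟩
  choose J g hJ hg hd using hex
  obtain ⟨a, ha⟩ := decode hk (by omega : 0 < t + 1) G J hJ
  refine ⟨a, le_trans ?_ (Nat.mul_le_mul_left 16 ha)⟩
  have key : 16 * K * cutP (demG k (G.map raw)) T ≤ 2 * K * (G.length * 2 ^ k) +
      16 * K * (2 ^ k * G.countP fun c => decide (Hit J c)) +
      cutP (capG k (512 * K) (G.map raw)) T := by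
    clear h1 h2 ha
    induction G with
    | nil => simp [demG, cutP]
    | cons c G ih =>
      unfold demG capG at ih ⊢
      rw [List.map_cons, List.flatMap_cons, List.flatMap_cons, cutP_append, cutP_append,
        cutP_append, cutP_append, cutP_cube, cutP_cube, cutP_cons, demE, cutP_edg,
        List.countP_cons, List.length_cons]
      have b1 : df (F c.1) (fun x => F c.1 (neg x)) ≤ 2 ^ k := (df_le _ _).trans (by simp)
      have b2 : 16 * K * df (F c.1) (fun x => F c.1 (neg x)) ≤ 2 * K * 2 ^ k +
          16 * K * (2 ^ k * if decide (Hit J c) = true then 1 else 0) +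
          (infl (F c.1) + (infl (F c.2.1) +
            512 * K * df (F c.2.1) fun y => F c.1 (part (raw c) y))) := by
        have b3 := Nat.mul_le_mul_left (16 * K) b1
        by_cases hc : Hit J c
        · simp only [hc, decide_true, if_true, mul_one]
          omega
        by_contra hn
        simp only [hc, decide_false, Bool.false_eq_true, if_false, mul_zero, add_zero, not_le] at hn
        have b4 := miss c J F g hg hc
        have b5 := hd c.1 (by omega)
        have b6 := hd c.2.1 (by omega)
        have b7 : K * (32 * df (F c.2.1) fun y => F c.1 (part (raw c) y)) ≤ K * 2 ^ k := by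
          nlinarith
        have b8 := Nat.le_of_mul_le_mul_left b7 hK
        have b9 : 16 * df (F c.1) (fun x => F c.1 (neg x)) ≤ 2 * 2 ^ k := by omega
        have b10 := Nat.mul_le_mul_left K b9
        nlinarith
      simp only [raw, F] at b2 ih ⊢
      nlinarith
  rw [length_demG, List.length_map] at h1 h2
  have h3 := Nat.mul_le_mul_left (4 * K) h1
  have h4 : K * 2 ^ k * G.length ≤ K * 2 ^ k * (16 * G.countP fun c => decide (Hit J c)) := by
    nlinarith
  exact Nat.le_of_mul_le_mul_left h4 (by positivity)

theorem complete {k : ℕ} (W : ℕ) (G : UG k) (a : ℕ → Fin k) : ∃ T : ℕ → Bool,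
    (∀ e ∈ demG k (G.map raw), T e.1 ≠ T e.2) ∧
      cutP (capG k W (G.map raw)) T + W * (2 ^ k * ugCount G a) ≤ (2 + W) * (G.length * 2 ^ k) := by
  classical
  let T : ℕ → Bool := fun n => decide (∃ (u : ℕ) (x : Cube k), nm u x = n ∧ x (a u) = true)
  have hT : ∀ u (x : Cube k), T (nm u x) = x (a u) := fun u x => by
    cases h : x (a u)
    · refine decide_eq_false ?_
      rintro ⟨v, y, h1, h2⟩
      obtain ⟨rfl, rfl⟩ := nm_inj h1
      simp [h] at h2
    · exact decide_eq_true ⟨u, x, rfl, h⟩
  have hI : ∀ u, infl (fun x : Cube k => T (nm u x)) ≤ 2 ^ k := fun u => by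
    unfold infl df
    refine (card_le_card (t := univ ×ˢ {a u}) fun p hp => ?_).trans (by simp)
    simp only [hT, mem_filter, mem_univ, true_and] at hp
    by_contra hc
    have : a u ≠ p.2 := fun h => hc (by simp [h])
    simp [Function.update_of_ne this] at hp
  refine ⟨T, fun e he => ?_, ?_⟩
  · simp only [demG, demE, edg, List.mem_flatMap, List.mem_map] at he
    obtain ⟨c, -, x, -, rfl⟩ := he
    simp [hT, neg]
  · induction G with
    | nil => simp [capG, cutP, ugCount]
    | cons c G ih =>
      unfold capG ugCount at ih ⊢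
      rw [List.map_cons, List.flatMap_cons, cutP_append, cutP_append, cutP_append, cutP_cube,
        cutP_cube, cutP_cons, List.countP_cons, List.length_cons]
      have b1 := hI (raw c).1
      have b2 := hI (raw c).2.1
      have b3 : df (fun y : Cube k => T (nm (raw c).2.1 y)) (fun y => T (nm (raw c).1 (part (raw c) y)))
          + 2 ^ k * (if decide (a c.2.1 = c.2.2 (a c.1)) = true then 1 else 0) ≤ 2 ^ k := by
        by_cases hc : a c.2.1 = c.2.2 (a c.1)
        · have : df (fun y : Cube k => T (nm (raw c).2.1 y))
              (fun y => T (nm (raw c).1 (part (raw c) y))) = 0 := by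
            unfold df
            rw [card_eq_zero, filter_eq_empty_iff]
            intro y _
            beta_reduce
            rw [hT, hT, not_not]
            change y (a c.2.1) = part (raw c) y (a c.1)
            rw [part_raw]
            by_cases huv : c.1 = c.2.1
            · rw [if_pos huv, if_pos (by rw [← hc, huv]), huv]
            · rw [if_neg huv, hc]
          simp [this, hc]
        · simpa [hc] using (df_le (X := Cube k) _ _)
      have b4 := Nat.mul_le_mul_left W b3
      nlinarith

end Vale.Agent.P318
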