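import Vale.Agent.P325.StDefs

/-! Sparsest cut with a demand graph, approximation oracles, oracle reductions. -/

namespace Vale.Agent.P318

open Vale.Agent.P325

/-- A multigraph: a list of edges between vertices named by natural numbers. -/
abbrev Edges : Type := List (ℕ × ℕ)

/-- The number of edges of `E` with exactly one end in `S`. -/
def cut (E : Edges) (S : List ℕ) : ℕ :=
  E.countP fun e => decide (e.1 ∈ S) != decide (e.2 ∈ S)

/-- An instance: the capacity graph and the demand graph. -/
abbrev Inst : Type := Edges × Edges

/-- The ends of the edges of a multigraph. -/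
def ends (E : Edges) : List ℕ := E.flatMap fun e => [e.1, e.2]

/-- The sparsity of the cut `S`: capacity cut over demand cut. -/
noncomputable def ratio (I : Inst) (S : List ℕ) : ℝ := (cut I.1 S : ℝ) / (cut I.2 S : ℝ)

/-- `A` returns on every instance a set of vertices; if some cut separates a demand, then the
returned cut separates a demand and its sparsity is within the factor `C` of every such cut. -/
def IsApprox (C : ℝ) (A : Inst → List ℕ) : Prop :=
  ∀ I : Inst, (A I).Nodup ∧ (∀ v ∈ A I, v ∈ ends I.1 ∨ v ∈ ends I.2) ∧
    ∀ S : List ℕ, 0 < cut I.2 S → 0 < cut I.2 (A I) ∧ ratio I (A I) ≤ C * ratio I S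

/-- A list of lists of naturals as one list: entries are shifted by one, zero ends a list. -/
def flat (L : List (List ℕ)) : List ℕ := L.flatMap fun l => l.map (· + 1) ++ [0]

/-- Binary code of an instance. -/
def codeI (I : Inst) : List Bool := bitsOf (flat [ends I.1, ends I.2])

/-- Binary code of an input string together with a list of answers. -/
def codeQ (q : List Bool × List (List ℕ)) : List Bool := bitsOf (flat (q.1.map Bool.toNat :: q.2))

/-- The answers of the oracle `A` to the first `n` adaptive queries made by `ask` on input `x`. -/
def answers (A : Inst → List ℕ) (ask : List Bool × List (List ℕ) → Inst) (x : List Bool) :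
    ℕ → List (List ℕ)
  | 0 => []
  | n + 1 => answers A ask x n ++ [A (ask (x, answers A ask x n))]

end Vale.Agent.P318
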