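import Vale.Agent.P318.Final

/-! Approximation oracles exist. -/

namespace Vale.Agent.P318

theorem exists_approx (C : ℝ) (hC : 1 ≤ C) : ∃ A, IsApprox C A := by
  have key : ∀ I : Inst, ∃ S0 : List ℕ, S0.Nodup ∧ (∀ v ∈ S0, v ∈ ends I.1 ∨ v ∈ ends I.2) ∧
      ∀ S : List ℕ, 0 < cut I.2 S → 0 < cut I.2 S0 ∧ ratio I S0 ≤ C * ratio I S := fun I => by
    let V := (ends I.1 ++ ends I.2).dedup
    let F := V.sublists.toFinset.filter fun S => 0 < cut I.2 S
    have hm : ∀ (S : List ℕ) (v : ℕ), decide (v ∈ V.filter fun w => decide (w ∈ S)) =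
        decide (v ∈ (ends I.1 ++ ends I.2).filter fun w => decide (w ∈ S)) := fun S v => by
      simp only [V, List.mem_filter, List.mem_dedup]
    have h1 : ∀ S : List ℕ, cut I.1 (V.filter fun w => decide (w ∈ S)) = cut I.1 S := fun S =>
      List.countP_congr fun e he => by
        rw [hm, hm, (cut_filter _ (Or.inl he)).1, (cut_filter _ (Or.inl he)).2]
    have h2 : ∀ S : List ℕ, cut I.2 (V.filter fun w => decide (w ∈ S)) = cut I.2 S := fun S =>
      List.countP_congr fun e he => by
        rw [hm, hm, (cut_filter _ (Or.inr he)).1, (cut_filter _ (Or.inr he)).2]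
    have h3 : ∀ S : List ℕ, 0 < cut I.2 S → (V.filter fun w => decide (w ∈ S)) ∈ F :=
      fun S hS => by
        simp only [F, Finset.mem_filter, List.mem_toFinset, List.mem_sublists, h2]
        exact ⟨List.filter_sublist, hS⟩
    by_cases hF : F.Nonempty
    · obtain ⟨S0, a1, a2⟩ := F.exists_min_image (ratio I) hF
      simp only [F, Finset.mem_filter, List.mem_toFinset, List.mem_sublists] at a1
      refine ⟨S0, a1.1.nodup (List.nodup_dedup _), fun v hv => ?_, fun S hS => ⟨a1.2, ?_⟩⟩
      · simpa [V] using a1.1.subset hv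
      · have a3 := a2 _ (h3 S hS)
        have a4 : 0 ≤ ratio I S := by unfold ratio; positivity
        simp only [ratio, h1, h2] at a3 a4 ⊢
        nlinarith
    · exact ⟨[], by simp, by simp, fun S hS => (hF ⟨_, h3 S hS⟩).elim⟩
  choose A hA using key
  exact ⟨A, hA⟩

end Vale.Agent.P318
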