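import Vale.Agent.P318.Iter
import Vale.Agent.P325.Final

/-! The oracle reduction. -/

namespace Vale.Agent.P318

open Vale.Agent.P325 Vale.Agent.P325.Fnl Vale.Agent.Lib.PolyTime

/-- Inverse of `flat`. -/
def unflat (l : List ℕ) : List (List ℕ) :=
  l.foldr (fun a acc => if a = 0 then [] :: acc else ((a - 1) :: acc.headI) :: acc.tail) []

theorem unflat_flat (L : List (List ℕ)) : unflat (flat L) = L := by
  induction L with
  | nil => rfl
  | cons l L ih =>
    unfold unflat flat at ih ⊢
    rw [List.flatMap_cons, List.foldr_append, ih]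
    induction l with
    | nil => simp
    | cons a l ih2 =>
      rw [List.map_cons, List.cons_append, List.foldr_cons, ih2]
      simp

theorem pt_unflat : PT unflat :=
  PT.foldr_add (f := fun _ (a : ℕ) (acc : List (List ℕ)) =>
      if a = 0 then [] :: acc else ((a - 1) :: acc.headI) :: acc.tail)
    (i := fun _ => []) (by fun_prop) PT.id (by fun_prop) (PB.sz.lin 4 6) fun l s a ha => by
      have h1 := sz_mem ha
      have h2 : sz (a - 1) ≤ sz a := sz_nat_mono (by omega)
      split_ifs
      · simp
      · cases s with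
        | nil =>
          have : sz (default : List ℕ) = 0 := rfl
          simp [this]; omega
        | cons b s => simp; omega

theorem pt_flat : PT flat := by unfold flat; fun_prop

theorem pt_ends : PT ends := by unfold ends; fun_prop

theorem pt_codeI : PT codeI := by
  have h1 : PT fun I : Inst => ends I.1 := pt_ends.comp (by fun_prop)
  have h2 : PT fun I : Inst => ends I.2 := pt_ends.comp (by fun_prop)
  exact pt_bitsOf.comp (pt_flat.comp (f := fun I : Inst => [ends I.1, ends I.2]) (by fun_prop))

/-- Inverse of `codeQ`. -/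
def parseQ (w : List Bool) : List Bool × List (List ℕ) :=
  ((unflat (dec w)).headI.map fun n => decide (n = 1), (unflat (dec w)).tail)

theorem pt_parseQ : PT parseQ := by
  have h := pt_unflat.comp pt_dec
  unfold parseQ
  fun_prop

theorem parseQ_code (q : List Bool × List (List ℕ)) : parseQ (codeQ q) = q := by
  have e : ((fun n => decide (n = 1)) ∘ Bool.toNat) = id := by funext b; cases b <;> rfl
  simp [parseQ, codeQ, dec_bitsOf, unflat_flat, e]

/-- Reading the constraints of a game. -/
def parseR (k : ℕ) (l : List ℕ) : List Raw :=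
  (List.range (l.length / (k + 2))).map fun i =>
    (l.getD (i * (k + 2)) 0, l.getD (i * (k + 2) + 1) 0, (l.drop (i * (k + 2) + 2)).take k)

theorem pt_parseR (k : ℕ) : PT (parseR k) := by
  have h1 : PT fun l : List ℕ => List.range (l.length / (k + 2)) :=
    PT.range (by fun_prop) ((PT.pb_length PT.id).of_le fun _ => Nat.div_le_self _ _)
  unfold parseR
  fun_prop

theorem parseR_nats {k : ℕ} (G : UG k) : parseR k (natsUG G) = G.map raw := by
  induction G with
  | nil => simp [parseR, natsUG]
  | cons c G ih =>
    obtain ⟨p, hp, e, e1⟩ : ∃ p : List ℕ, p.length = k + 2 ∧ natsUG (c :: G) = p ++ natsUG G ∧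
        p = c.1 :: c.2.1 :: List.ofFn fun i => (c.2.2 i : ℕ) :=
      ⟨_, by simp, by simp [natsUG], rfl⟩
    unfold parseR at ih ⊢
    rw [e, List.length_append, hp, Nat.add_div_left _ (by omega), List.range_succ_eq_map,
      List.map_cons, List.map_map, List.map_cons]
    refine congrArg₂ List.cons ?_ ?_
    · simp [e1, raw]
    · refine Eq.trans (List.map_congr_left fun i _ => ?_) ih
      have e0 : ∀ j, (i + 1) * (k + 2) + j = p.length + (i * (k + 2) + j) := fun j => by
        rw [hp]; ring
      have e2 : (i + 1) * (k + 2) = p.length + i * (k + 2) := e0 0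
      simp only [Function.comp_apply, Nat.succ_eq_add_one]
      rw [e0 1, e0 2, e2, List.getD_append_right _ _ _ _ (by omega),
        List.getD_append_right _ _ _ _ (by omega), List.drop_length_add_append]
      simp

theorem pt_edg {α X : Type} [Enc α] [Fintype X] (f g : α → X → ℕ) (hf : ∀ x, PT fun a => f a x)
    (hg : ∀ x, PT fun a => g a x) : PT fun a => edg (f a) (g a) :=
  pt_map_const _ (fun a x => (f a x, g a x)) fun x _ => (hf x).mk (hg x)

theorem pt_nm {k : ℕ} (x : Cube k) : PT fun u => nm u x := by unfold nm; fun_prop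

theorem pt_demG (k : ℕ) : PT (demG k) := by
  have h : PT (demE k) := pt_edg _ _ (fun _ => pt_nm _) fun _ => pt_nm _
  unfold demG
  fun_prop

theorem pt_capG (k W : ℕ) : PT (capG k W) := by
  have h : PT (cubeE k) := pt_edg _ _ (fun _ => pt_nm _) fun _ => pt_nm _
  have h2 : PT (consE k W) := pt_flatMap_const _ _ fun _ _ =>
    pt_edg _ _ (fun _ => (pt_nm _).comp (f := fun c : Raw => c.2.1) (by fun_prop)) fun y =>
      pt_finite_fun (fun c : Raw => part c y) (fun i => by unfold part; fun_prop)
        (fun b c => nm c.1 b) fun b => (pt_nm b).comp (f := fun c : Raw => c.1) (by fun_prop)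
  unfold capG
  fun_prop

theorem pt_cut : PT fun p : Edges × List ℕ => cut p.1 p.2 := by
  unfold cut bne
  fun_prop

theorem pt_run : PT fun p : Inst × List (List ℕ) => run p.1 p.2 := by
  have h1 : PT fun p : (Inst × List (List ℕ)) × (Edges × ℕ) × List ℕ => cut p.1.1.1 p.2.2 :=
    pt_cut.comp (f := fun p : (Inst × List (List ℕ)) × (Edges × ℕ) × List ℕ => (p.1.1.1, p.2.2))
      (by fun_prop)
  refine PT.foldl_add (f := fun p : Inst × List (List ℕ) => step p.1.1 p.1.2.length)
    (by unfold step bne; fun_prop) (by fun_prop) (by fun_prop)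
    ((PT.pb_length (l := fun p : Inst × List (List ℕ) => p.1.1) (by fun_prop)).lin 1 1)
    fun p s S _ => ?_
  unfold step
  split_ifs
  · have a1 := sz_sublist (List.filter_sublist (l := s.1)
      (p := fun e => !(decide (e.1 ∈ S) != decide (e.2 ∈ S))))
    have a2 := size_add_le s.2 (cut p.1.1 S)
    have a3 : Nat.size (cut p.1.1 S) ≤ p.1.1.length :=
      (sz_nat_le _).trans List.countP_le_length
    rw [sz_pair, sz_prod s, sz_nat, sz_nat]
    omega
  · omega

theorem length_codeI {cap D D' : Edges} (h : D'.Sublist D) :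
    (codeI (cap, D')).length ≤ (codeI (cap, D)).length := by
  have h1 : (ends D').Sublist (ends D) := h.flatMap _
  have h2 : (flat [ends cap, ends D']).Sublist (flat [ends cap, ends D]) := by
    simp only [flat, List.flatMap_cons, List.flatMap_nil, List.append_nil]
    exact (List.Sublist.refl _).append ((h1.map _).append (List.Sublist.refl _))
  exact (h2.flatMap _).length_le

theorem cut_filter {I : Inst} (T : ℕ → Bool) {e : ℕ × ℕ} (he : e ∈ I.1 ∨ e ∈ I.2) :
    decide (e.1 ∈ (ends I.1 ++ ends I.2).filter T) = T e.1 ∧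
      decide (e.2 ∈ (ends I.1 ++ ends I.2).filter T) = T e.2 := by
  have h1 : e.1 ∈ ends I.1 ++ ends I.2 ∧ e.2 ∈ ends I.1 ++ ends I.2 := by
    simp only [ends, List.mem_append, List.mem_flatMap]
    exact ⟨he.imp (fun h => ⟨e, h, by simp⟩) fun h => ⟨e, h, by simp⟩,
      he.imp (fun h => ⟨e, h, by simp⟩) fun h => ⟨e, h, by simp⟩⟩
  simp only [List.mem_filter, h1.1, h1.2, true_and, Bool.decide_eq_true, and_self]

theorem final_of (h : UGThm) (C : ℝ) (hC : 0 ≤ C) :
    ∃ (p : Polynomial ℕ) (ask : List Bool × List (List ℕ) → Inst)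
      (out : List Bool × List (List ℕ) → Bool),
      (∃ M : Turing.TM2ComputableInPolyTime codeQ codeI ask, ∀ j, Finite (M.tm.Γ j)) ∧
      (∃ M : Turing.TM2ComputableInPolyTime codeQ (fun b => [b]) out, ∀ j, Finite (M.tm.Γ j)) ∧
      ∀ A : Inst → List ℕ, IsApprox C A → ∀ x : List Bool,
        (∀ n, (codeI (ask (x, answers A ask x n))).length ≤ p.eval x.length) ∧
        (out (x, answers A ask x (p.eval x.length)) = true ↔
          ∃ φ : CNF3, bitsOf (natsCNF φ) = x ∧ Sat φ) := by
  obtain ⟨K, hK⟩ := exists_nat_gt (6 * C)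
  have hK0 : 0 < K := by
    have : (0 : ℝ) < K := by linarith
    exact_mod_cast this
  obtain ⟨t, ht, hs⟩ := sound K hK0
  have hKr : (0 : ℝ) < K := by exact_mod_cast hK0
  have htr : (0 : ℝ) < t := by exact_mod_cast ht
  obtain ⟨k, hk, f, hf, hφ⟩ := h (1 / (512 * K)) (1 / (17 * (t * t))) (by positivity)
    (by positivity)
  let I : List Bool → Inst := fun x =>
    (capG k (512 * K) ((f (rd x)).map raw), demG k ((f (rd x)).map raw))
  have hR : PT fun x => (f (rd x)).map raw :=
    ((pt_parseR k).comp (hf.comp pt_rd)).congr fun x => (parseR_nats _).symm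
  have hI : PT I := ((pt_capG k _).comp hR).mk ((pt_demG k).comp hR)
  have hr : PT fun q : List Bool × List (List ℕ) => run (I q.1) q.2 :=
    pt_run.comp (f := fun q : List Bool × List (List ℕ) => (I q.1, q.2)) (by fun_prop)
  let ask : List Bool × List (List ℕ) → Inst := fun q => ((I q.1).1, (run (I q.1) q.2).1)
  let out : List Bool × List (List ℕ) → Bool := fun q =>
    decide ((run (I q.1) q.2).2 ≤ K * (I q.1).2.length)
  have hask : PT ask := by fun_prop
  have hout : PT fun q => [out q] := by fun_prop
  obtain ⟨Q, hQ⟩ := (pt_codeI.comp hI).pb_length.add hI.snd.pb_length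
  have hQ' : ∀ x, (codeI (I x)).length + (I x).2.length ≤
      (Q.comp (Polynomial.C 4 * Polynomial.X)).eval x.length := fun x => by
    refine (hQ x).trans ?_
    simp only [Polynomial.eval_comp, Polynomial.eval_mul, Polynomial.eval_C, Polynomial.eval_X]
    refine eval_mono Q ?_
    induction x with
    | nil => simp
    | cons b l ih => simp; omega
  refine ⟨Q.comp (Polynomial.C 4 * Polynomial.X), ask, out,
    (pt_codeI.comp (hask.comp pt_parseQ)).rawMachine _ _ _ fun q => by rw [parseQ_code],
    (hout.comp pt_parseQ).rawMachine _ _ _ fun q => by rw [parseQ_code], fun A hA x => ⟨fun n =>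
      (length_codeI (run_sub _ _)).trans ((Nat.le_add_right _ _).trans (hQ' x)), ?_⟩⟩
  rw [← sat_rd]
  obtain ⟨g0, g1, g2⟩ := hφ (rd x)
  have hm : (0 : ℝ) < (f (rd x)).length := by exact_mod_cast List.length_pos_iff.2 g0
  generalize hn : (Q.comp (Polynomial.C 4 * Polynomial.X)).eval x.length = n
  have hn' : (I x).2.length ≤ n := hn ▸ (Nat.le_add_left _ _).trans (hQ' x)
  simp only [out, decide_eq_true_eq]
  constructor
  · intro hc
    by_contra hsat
    obtain ⟨T0, hT0, -⟩ := complete 0 (f (rd x)) fun _ => ⟨0, by omega⟩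
    have b1 := progress hA (I x) (answers A ask x) rfl (fun _ => rfl)
      (fun e he h => hT0 e he (by rw [h])) n
    obtain ⟨T, b2, b3⟩ := fold_xor (I x).1 (I x).2.length (answers A ask x n) ((I x).2, 0)
    change _ ≤ (run _ _).2 at b2
    change _ ≤ _ + (run _ _).1.length at b3
    simp only at b2 b3
    obtain ⟨a, ha⟩ := hs k (by omega) (f (rd x)) T
      (by change (I x).2.length ≤ 4 * cutP (I x).2 T; omega)
      (by change cutP (I x).1 T ≤ K * (I x).2.length; omega)
    have b4 := g2 hsat a
    have b5 : ((f (rd x)).length : ℝ) ≤ 16 * (t * t * ugCount (f (rd x)) a) := by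
      exact_mod_cast ha
    rw [one_div, inv_mul_eq_div, le_div_iff₀ (by positivity)] at b4
    nlinarith
  · intro hsat
    obtain ⟨a, ha⟩ := g1 hsat
    obtain ⟨T, hT, hc⟩ := complete (512 * K) (f (rd x)) a
    have b1 : cut (I x).1 ((ends (I x).1 ++ ends (I x).2).filter T) = cutP (I x).1 T :=
      List.countP_congr fun e he => by
        rw [(cut_filter T (Or.inl he)).1, (cut_filter T (Or.inl he)).2]
    have b2 : cutP (I x).1 T ≤ 3 * (I x).2.length := by
      have c1 : 512 * K * (f (rd x)).length ≤
          512 * K * ugCount (f (rd x)) a + (f (rd x)).length := by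
        have c2 := mul_le_mul_of_nonneg_left ha (by positivity : (0 : ℝ) ≤ 512 * K)
        have c3 : (512 * K : ℝ) * ((1 - 1 / (512 * K)) * (f (rd x)).length) =
            512 * K * (f (rd x)).length - (f (rd x)).length := by field_simp
        have c4 : (512 * K * (f (rd x)).length : ℝ) ≤
            512 * K * ugCount (f (rd x)) a + (f (rd x)).length := by linarith
        exact_mod_cast c4
      have c5 := Nat.mul_le_mul_left (2 ^ k) c1
      simp only [I, length_demG, List.length_map]
      nlinarith
    have b3 := cheap hA (I x) (answers A ask x) rfl (fun _ => rfl) hC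
      ((ends (I x).1 ++ ends (I x).2).filter T)
      (fun e he => by
        rw [(cut_filter T (Or.inr he)).1, (cut_filter T (Or.inr he)).2]; exact hT e he)
      (b1 ▸ b2) n
    have b4 : ((run (I x) (answers A ask x n)).2 : ℝ) ≤ K * (I x).2.length := by
      have c1 : (0 : ℝ) ≤ 6 * C * (run (I x) (answers A ask x n)).1.length := by positivity
      have c2 : 6 * C * (I x).2.length ≤ K * ((I x).2.length : ℝ) :=
        mul_le_mul_of_nonneg_right hK.le (by positivity)
      linarith
    exact_mod_cast b4

end Vale.Agent.P318
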