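import Vale.Agent.P318.Core

/-! Repeated calls of the oracle. -/

namespace Vale.Agent.P318

/-- One round: remove the separated demands and pay for the cut. -/
def step (cap : Edges) (h : ℕ) (s : Edges × ℕ) (S : List ℕ) : Edges × ℕ :=
  if h < 2 * s.1.length then
    (s.1.filter fun e => !(decide (e.1 ∈ S) != decide (e.2 ∈ S)), s.2 + cut cap S) else s

/-- All rounds. -/
def run (I : Inst) (L : List (List ℕ)) : Edges × ℕ := L.foldl (step I.1 I.2.length) (I.2, 0)

theorem cutP_xor (E : Edges) (T U : ℕ → Bool) :
    cutP E (fun v => xor (T v) (U v)) ≤ cutP E T + cutP E U := by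
  induction E with
  | nil => simp [cutP]
  | cons e E ih =>
    simp only [cutP, List.countP_cons] at ih ⊢
    cases T e.1 <;> cases T e.2 <;> cases U e.1 <;> cases U e.2 <;>
      simp only [bne_self_eq_false, Bool.not_false, if_true, Bool.false_eq_true,
        if_false, Bool.xor_false, Bool.xor_true] <;> omega

theorem cutP_split (E : Edges) (T U : ℕ → Bool) :
    cutP E T + cutP E (fun v => xor (T v) (U v)) + (E.filter fun e => !(U e.1 != U e.2)).length =
      2 * cutP (E.filter fun e => !(U e.1 != U e.2)) T + E.length := by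
  induction E with
  | nil => simp [cutP]
  | cons e E ih =>
    simp only [cutP, List.countP_cons, List.filter_cons] at ih ⊢
    cases h1 : T e.1 <;> cases h2 : T e.2 <;> cases U e.1 <;> cases U e.2 <;>
      simp only [List.countP_cons, h1, h2, List.length_cons, bne_self_eq_false, Bool.not_false,
        Bool.not_true, if_true, Bool.false_eq_true, if_false, Bool.xor_false, Bool.xor_true] <;>
      omega

theorem fold_xor (cap : Edges) (h : ℕ) (L : List (List ℕ)) : ∀ s : Edges × ℕ, ∃ T : ℕ → Bool,
    cutP cap T + s.2 ≤ (L.foldl (step cap h) s).2 ∧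
      s.1.length ≤ 2 * cutP s.1 T + (L.foldl (step cap h) s).1.length := by
  induction L with
  | nil => exact fun s => ⟨fun _ => false, by simp [cutP], by simp⟩
  | cons S L ih =>
    intro s
    obtain ⟨T, h1, h2⟩ := ih (step cap h s S)
    rw [List.foldl_cons]
    generalize L.foldl (step cap h) (step cap h s S) = r at h1 h2 ⊢
    unfold step at h1 h2
    split_ifs at h1 h2
    · have a1 := cutP_xor cap T fun v => decide (v ∈ S)
      have a2 := cutP_split s.1 T fun v => decide (v ∈ S)
      have a3 : cut cap S = cutP cap fun v => decide (v ∈ S) := rfl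
      simp only at h1 h2 a2
      by_cases hc : cutP s.1 (fun v => xor (T v) (decide (v ∈ S))) ≤ cutP s.1 T
      · exact ⟨T, by omega, by omega⟩
      · exact ⟨fun v => xor (T v) (decide (v ∈ S)), by omega, by omega⟩
    · exact ⟨T, h1, h2⟩

theorem run_sub (I : Inst) (L : List (List ℕ)) : (run I L).1.Sublist I.2 := by
  have key : ∀ s : Edges × ℕ, (L.foldl (step I.1 I.2.length) s).1.Sublist s.1 := by
    induction L with
    | nil => simp
    | cons S L ih =>
      intro s
      refine (ih _).trans ?_
      unfold step
      split_ifs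
      · exact List.filter_sublist
      · exact List.Sublist.refl _
  exact key _

theorem run_snoc (I : Inst) (L : List (List ℕ)) (S : List ℕ) :
    run I (L ++ [S]) = step I.1 I.2.length (run I L) S := by
  simp [run]

theorem length_rest (E : Edges) (S : List ℕ) :
    (E.filter fun e => !(decide (e.1 ∈ S) != decide (e.2 ∈ S))).length + cut E S = E.length := by
  rw [cut, List.countP_eq_length_filter, add_comm]
  exact (List.length_eq_length_filter_add _).symm

variable {C : ℝ} {A : Inst → List ℕ} (hA : IsApprox C A) (I : Inst) (a : ℕ → List (List ℕ))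
  (h0 : a 0 = []) (h1 : ∀ n, a (n + 1) = a n ++ [A (I.1, (run I (a n)).1)])

include hA h0 h1

theorem progress (hI : ∀ e ∈ I.2, e.1 ≠ e.2) (n : ℕ) :
    2 * (run I (a n)).1.length ≤ I.2.length ∨ (run I (a n)).1.length + n ≤ I.2.length := by
  induction n with
  | zero => right; simp [h0, run]
  | succ n ih =>
    rw [h1, run_snoc]
    unfold step
    split_ifs with hc
    · right
      obtain ⟨e, he⟩ := List.exists_mem_of_length_pos (l := (run I (a n)).1) (by omega)
      have b1 : 0 < cut (run I (a n)).1 [e.1] :=
        List.countP_pos_iff.2 ⟨e, he, by simp [(hI e ((run_sub I _).subset he)).symm]⟩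
      have b2 := ((hA (I.1, (run I (a n)).1)).2.2 _ b1).1
      have b3 := length_rest (run I (a n)).1 (A (I.1, (run I (a n)).1))
      simp only at b2 ⊢
      omega
    · left; omega

theorem cheap (hC : 0 ≤ C) (S : List ℕ) (hS : ∀ e ∈ I.2, decide (e.1 ∈ S) ≠ decide (e.2 ∈ S))
    (hc : cut I.1 S ≤ 3 * I.2.length) (n : ℕ) :
    ((run I (a n)).2 : ℝ) + 6 * C * (run I (a n)).1.length ≤ 6 * C * I.2.length := by
  induction n with
  | zero => simp [h0, run]
  | succ n ih =>
    rw [h1, run_snoc]
    unfold step
    split_ifs with hd
    · have b0 : cut (run I (a n)).1 S = (run I (a n)).1.length :=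
        List.countP_eq_length.2 fun e he => by simpa using hS e ((run_sub I _).subset he)
      obtain ⟨b1, b2⟩ := (hA (I.1, (run I (a n)).1)).2.2 S (by simp only [b0]; omega)
      have b3 := length_rest (run I (a n)).1 (A (I.1, (run I (a n)).1))
      simp only [ratio, b0] at b1 b2 ⊢
      have c1 : (0 : ℝ) < cut (run I (a n)).1 (A (I.1, (run I (a n)).1)) := by exact_mod_cast b1
      have c2 : (0 : ℝ) < (run I (a n)).1.length := by
        have : 0 < (run I (a n)).1.length := by omega
        exact_mod_cast this
      have c3 : (cut I.1 S : ℝ) / (run I (a n)).1.length ≤ 6 := by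
        rw [div_le_iff₀ c2]
        have : cut I.1 S ≤ 6 * (run I (a n)).1.length := by omega
        exact_mod_cast this
      have c4 := (div_le_iff₀ c1).1 (b2.trans (mul_le_mul_of_nonneg_left c3 hC))
      rw [← b3] at ih
      push_cast at ih ⊢
      nlinarith
    · exact ih

end Vale.Agent.P318
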